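import Vale.Agent.P144D.K.Core
import Vale.Agent.P144D.C.Main
import Vale.Agent.P144D.H.Plus
import Vale.Agent.P144D.H.Free

/-!
Block K: the gap and the bound on the last integration.
-/

namespace Vale.Agent.P144Z

theorem kStmt_of (h : GapStmt) : KStmt :=
  K.core h (fun _ _ _ _ _ _ _ _ _ _ _ S h1 h2 hfr hr hM =>
    let H := str_reg S h1 h2 hfr hr hM
    ⟨H.1, H.2.1, H.2.2.1, H.2.2.2.1⟩) plus_K free_K

end Vale.Agent.P144Z
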