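import Vale.Agent.P144D.Defs
import Vale.Agent.P144D.LM.Main

/-!
Block K: the gap and the bound on the last integration, from the strings and the decay bounds.
-/

namespace Vale.Agent.P144Z.K

open Finset Matrix

/-- The statement on the strings. -/
def StrS : Prop :=
  ∀ (M : ℕ) [NeZero M] (Λ : Finset (ℤ × ℤ)) (fr : Bool) (T r n H : ℕ) (x : Fin n → ℤ × ℤ)
    (a : ℤ × ℤ) (hs : Fin H → ℤ × ℤ) (S : Finset (Fin H)), Holes Λ T r a hs → Spins Λ r x →
    (fr = true → H = 0 ∧ Even n) → 2 ≤ r → 4 * (T + r) ≤ M →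
    Str (regOf M Λ fr).pw (spinG M a x * holeG M a hs S) (r - 1) ∧
      (∀ e, T + 1 < tdist e.1 0 → (spinG M a x * holeG M a hs S) e = 1) ∧
      (∀ f, flux ((regOf M Λ fr).pw * (spinG M a x * holeG M a hs S)) f = -1 ↔
        ∃ i, f = prj M (x i)) ∧
      (fr = true → ∀ f, flux (spinG M a x * holeG M a hs S) f = -1 ↔ ∃ i, f = prj M (x i))

/-- The statement on the plus boundary condition. -/
def PlusS : Prop :=
  ∀ n : ℕ, ∃ C : ℝ, 0 ≤ C ∧ ∀ (M : ℕ) [NeZero M] (Λ : Finset (ℤ × ℤ)) (T r H : ℕ)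
    (x : Fin n → ℤ × ℤ) (a : ℤ × ℤ) (hs : Fin H → ℤ × ℤ) (S : Finset (Fin H)),
    Holes Λ T r a hs → Spins Λ r x → 1 ≤ r → 4 * (T + 2) ≤ M →
      |Zw par0 ((regOf M Λ false).pw * (spinG M a x * holeG M a hs S)) 1| ≤
        C * (r : ℝ) ^ (-((n : ℝ) / 8)) * |Zw par0 (regOf M Λ false).pw 1|

/-- The statement on the free boundary condition. -/
def FreeS : Prop :=
  ∀ p : ℕ, ∃ C : ℝ, 0 ≤ C ∧ ∀ (M : ℕ) [NeZero M] (Λ : Finset (ℤ × ℤ)) (T r : ℕ)
    (x : Fin p × Fin 2 → ℤ × ℤ) (B : Gauge M), IsSign B → (∀ v ∈ Λ, zd v 0 ≤ T) → Spins Λ r x →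
    4 ≤ r → 4 * (T + 2) ≤ M →
    ∀ (ι : Type) [Fintype ι] [DecidableEq ι] (y : ι → Tor M) (d : ι → Fin 2) (J : ℕ),
      |aug (Ev.val ((geoD M ((regOf M Λ true).pw * B) y d J).Om (∏ i,
        pp ((geoD M ((regOf M Λ true).pw * B) y d J).ex (cnr (prj M (x (i, 0)))))
          ((geoD M ((regOf M Λ true).pw * B) y d J).ex (cnr (prj M (x (i, 1))))))))| ≤
        C * (r : ℝ) ^ (-(((2 * p : ℕ) : ℝ) / 8)) * |Zw par0 (regOf M Λ true).pw 1|

section

variable {M : ℕ}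

theorem isW_mul (R : Reg M) {B : Gauge M} (hB : IsSign B) : IsW (R.pw * B) := by
  intro e
  have h0 : (0 : ℝ) ≤ tT := by unfold tT; positivity
  have h1 : |B e| = 1 := by rcases hB e with h | h <;> simp [h]
  simp only [Pi.mul_apply, abs_mul, h1, mul_one, Reg.pw]
  split_ifs <;> simp [abs_of_nonneg h0]

theorem flux_mul' (A B : Gauge M) (f : Tor M) : flux (A * B) f = flux A f * flux B f := by
  simp only [flux, Pi.mul_apply]
  ring

theorem flux_sg {A : Gauge M} (hA : IsSign A) {f : Tor M} (h : flux A f ≠ -1) : flux A f = 1 := by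
  have k : ∀ a b : ℝ, a = 1 ∨ a = -1 → b = 1 ∨ b = -1 → a * b = 1 ∨ a * b = -1 := by
    rintro a b (rfl | rfl) (rfl | rfl) <;> simp
  exact (k _ _ (k _ _ (k _ _ (hA _) (hA _)) (hA _)) (hA _)).resolve_right h

theorem str_one' (P : Gauge M) (r : ℕ) : Str P 1 r := by
  have h : ∀ f : Tor M, flux (1 : Gauge M) f ≠ -1 := fun f => by
    simp only [flux, Pi.one_apply]
    norm_num
  exact ⟨fun _ => Or.inl rfl, fun f hf => absurd hf (h f), fun f _ hf => absurd hf (h f)⟩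

theorem shape_mono {I : Finset (Tor M)} {α κ : ℝ} {r r' : ℕ} (h : Shape I α κ r) (hr : r' ≤ r) :
    Shape I α κ r' := fun z => by
  obtain ⟨S₁, S₂, ν₁, ν₂, h1, h2, h3, h4, h5, h6⟩ := h z
  exact ⟨S₁, S₂, ν₁, ν₂, h1, h2, h3, h4, h5, fun v hv => h6 v (hv.trans hr)⟩

theorem lastB_mono {g : Geo} {ℓ : ℕ} {h K K' : ℝ} (hK : g.LastB ℓ h K) (hle : K ≤ K') :
    g.LastB ℓ h K' := fun β hβ F hF =>
  (hK β hβ F hF).trans (mul_le_mul_of_nonneg_right hle (Real.sSup_nonneg (by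
    rintro _ ⟨r, -, rfl⟩
    exact norm_nonneg _)))

variable [NeZero M]

theorem in_le {Λ : Finset (ℤ × ℤ)} {fr : Bool} {T : ℕ} (h : ∀ v ∈ Λ, zd v 0 ≤ T) :
    ∀ f ∈ (regOf M Λ fr).In, tdist f 0 ≤ T := by
  intro f hf
  obtain ⟨v, hv, rfl⟩ := mem_image.1 hf
  have h1 := tdist_prj_le (M := M) v 0
  rw [G.prj_zero] at h1
  exact h1.trans (h v hv)

theorem l2sq_univ' (u : Tor M × Fin 4 → ℝ) : l2sq univ u = u ⬝ᵥ u := by
  simp only [l2sq, dotProduct, Fintype.sum_prod_type, sq]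

theorem dot_nn (u : Tor M × Fin 4 → ℝ) : 0 ≤ u ⬝ᵥ u := Finset.sum_nonneg fun _ _ => mul_self_nonneg _

theorem cnr_dot {u : Tor M × Fin 4 → ℝ} {f f' : Tor M} {ρ : ℕ} (hu : SuppIn u f ρ)
    (h : ρ < tdist f' f) : cnr f' ⬝ᵥ u = 0 := by
  refine Finset.sum_eq_zero fun s _ => ?_
  by_cases e : s.1 = f'
  · rw [hu s (by rw [e]; exact h), mul_zero]
  · simp [cnr, e]

/-- Around a flux of the region the other faces are ordinary. -/
theorem flux_near {P B : Gauge M} {r : ℕ} (h : Str P B r) {f : Tor M} (hf : flux B f = -1)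
    (hf' : flux (P * B) f = -1) (hr : 1 ≤ r) {f' : Tor M} (hne : f' ≠ f)
    (hd : tdist f' f + 1 ≤ r) : flux (P * B) f' = 1 := by
  have hP : ∀ e, tdist e.1 f ≤ r → P e = 1 := by
    refine (h.fl f hf).resolve_right fun h0 => ?_
    have : P (f, 0) = 0 := h0 _ (by simp [tdist_self])
    rw [flux_mul'] at hf'
    simp [flux, this] at hf'
  have h1 : ∀ i, tdist (f' + uv M i) f ≤ r := fun i => by
    have := tdist_triangle (f' + uv M i) f' f
    have := tdist_uv f' i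
    omega
  have h2 : flux P f' = 1 := by
    unfold flux
    rw [hP (f', 0) (by simp only; omega), hP (f' + uv M 0, 1) (h1 0), hP (f' + uv M 1, 0) (h1 1),
      hP (f', 1) (by simp only; omega)]
    norm_num
  rw [flux_mul', h2, one_mul]
  refine flux_sg h.sign fun h3 => ?_
  have := h.sep f' f h3 hf hne
  omega

end

theorem rpow_le {ℓ r : ℕ} (hℓ : 8 ≤ ℓ) (h : ℓ ≤ r) (n : ℕ) :
    (r : ℝ) ^ (-((n : ℝ) / 8)) ≤ (ℓ : ℝ) ^ (-((n : ℝ) / 8)) :=
  Real.rpow_le_rpow_of_nonpos (by exact_mod_cast (by omega : 0 < ℓ)) (by exact_mod_cast h)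
    (by have : (0 : ℝ) ≤ n := Nat.cast_nonneg n
        linarith)

theorem core (hG : GapStmt) (hS : StrS) (hP : PlusS) (hF : FreeS) : KStmt := by
  intro n Λ₀
  obtain ⟨Γ₀, hΓ₀, HG⟩ := hG (2 * Λ₀ + 1)
  obtain ⟨C₁, hC₁, H₁⟩ := LM.lastB_gap
  obtain ⟨B, hB, HB⟩ := LM.low_mode
  set Γ : ℝ := Γ₀ * (Λ₀ + 1) with hΓd
  have hΓ : 1 ≤ Γ := one_le_mul_of_one_le_of_one_le hΓ₀ (by
    have : (0 : ℝ) ≤ Λ₀ := Nat.cast_nonneg _
    linarith)
  obtain ⟨C₂, hC₂, H₂⟩ := LM.lastB_low (n / 2) (B * (Λ₀ + 16)) Γ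
  obtain ⟨C₃, hC₃, H₃⟩ := hP n
  obtain ⟨C₄, hC₄, H₄⟩ := hF (n / 2)
  refine ⟨C₃ + C₂ * C₄, Γ, C₁ * Γ + C₂, by positivity, hΓ, by positivity, ?_⟩
  intro M _ Λ fr α T r ℓ H x a hs S hsh hH hx hfr hr hℓ hℓr hrT hT hM
  have hbox := in_le (M := M) (fr := fr) hH.box
  have hsq : (Γ₀ * ((T + 1 : ℕ) : ℝ)) ^ 2 ≤ (Γ * ℓ) ^ 2 := by
    refine pow_le_pow_left₀ (by positivity) ?_ 2
    have h1 : T + 1 ≤ (Λ₀ + 1) * ℓ := by nlinarith
    have h2 : ((T + 1 : ℕ) : ℝ) ≤ (Λ₀ + 1) * ℓ := by exact_mod_cast h1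
    rw [hΓd, mul_assoc]
    exact mul_le_mul_of_nonneg_left h2 (by linarith)
  have hTr : T + 1 ≤ (2 * Λ₀ + 1) * (r - 1) := by
    have h1 : Λ₀ * ℓ ≤ Λ₀ * (2 * (r - 1)) := Nat.mul_le_mul_left _ (by omega)
    have h2 : (2 * Λ₀ + 1) * (r - 1) = Λ₀ * (2 * (r - 1)) + (r - 1) := by ring
    omega
  have gap : ∀ B : Gauge M, Str (regOf M Λ fr).pw B (r - 1) →
      (∀ e, T + 1 < tdist e.1 0 → B e = 1) → ∀ (φ : Tor M × Fin 4 → ℝ) (t : Tor M → ℝ),
      (fr = true → ∀ f, flux B f = -1 → cnr f ⬝ᵥ φ = 0) →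
      (∀ f, t f ≠ 0 → fr = true ∧ flux B f = -1) → φ ⬝ᵥ φ ≤ (Γ * ℓ) ^ 2 *
        ((Dm ((regOf M Λ fr).pw * B) *ᵥ φ - ∑ f, t f • cnr f) ⬝ᵥ
          (Dm ((regOf M Λ fr).pw * B) *ᵥ φ - ∑ f, t f • cnr f)) := by
    intro B h1 h2 φ t h3 h4
    have := HG M (regOf M Λ fr) B α (T + 1) (r - 1) (shape_mono hsh (by omega)) h1
      (fun f hf => (hbox f hf).trans (by omega)) h2 (by omega) (by omega) hTr (by omega) φ t h3 h4
    rw [l2sq_univ', l2sq_univ'] at this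
    exact this.trans (mul_le_mul_of_nonneg_right hsq (dot_nn _))
  obtain ⟨s1, s2, s3, s4⟩ := hS M Λ fr T r n H x a hs S hH hx hfr (by omega) (by omega)
  refine ⟨fun φ => ?_, fun ι _ _ y d J => ?_⟩
  · have := gap 1 (str_one' _ _) (fun _ _ => rfl) φ 0 (fun _ f hf => by
      simp only [flux, Pi.one_apply] at hf
      norm_num at hf) (fun f hf => absurd rfl hf)
    simpa using this
  have hW := isW_mul (regOf M Λ fr) s1.sign
  have hp := rpow_le hℓ hℓr n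
  have hp0 : 0 ≤ (ℓ : ℝ) ^ (-((n : ℝ) / 8)) := by positivity
  cases fr
  · refine lastB_mono (H₁ (geoD M _ y d J) hW ℓ hℓ Γ hΓ (fun φ => ?_) _ (by linarith)) ?_
    · have := gap _ s1 s2 φ 0 (fun h => absurd h (by simp)) (fun f hf => absurd rfl hf)
      simp only [Pi.zero_apply, zero_smul, Finset.sum_const_zero, sub_zero] at this
      exact this
    · refine (H₃ M Λ T r H x a hs S hH hx (by omega) (by omega)).trans ?_
      refine mul_le_mul_of_nonneg_right ?_ (abs_nonneg _)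
      exact mul_le_mul (by nlinarith [mul_nonneg (zero_le_one.trans hC₂) hC₄]) hp (by positivity)
        (by positivity)
  · obtain ⟨-, hev⟩ := hfr rfl
    have hn : n / 2 * 2 = n := Nat.div_mul_cancel hev.two_dvd
    let e : Fin (n / 2) × Fin 2 ≃ Fin n := finProdFinEquiv.trans (finCongr hn)
    have s4' := s4 rfl
    have hx' : Spins Λ r (fun b => x (e b)) :=
      ⟨fun i => hx.ins (e i), fun i i' h => hx.sep _ _ (e.injective.ne h)⟩
    have hfl : ∀ b, flux (spinG M a x * holeG M a hs S) (prj M (x (e b))) = -1 := fun b =>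
      (s4' _).2 ⟨_, rfl⟩
    have hxT : ∀ i, zd (x i) 0 ≤ T := fun i => hH.box _ (hx.ins i _ (by simp [zd]))
    have hne : ∀ b b', b ≠ b' → prj M (x (e b)) ≠ prj M (x (e b')) := by
      intro b b' hb h
      have h1 := hx'.sep b b' hb
      have h2 := hxT (e b)
      have h3 := hxT (e b')
      have h4 : prj M (x (e b) - x (e b')) = 0 := by rw [G.prj_sub, h, sub_self]
      simp only [prj, Prod.mk_eq_zero, ZMod.intCast_zmod_eq_zero_iff_dvd, Prod.fst_sub,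
        Prod.snd_sub] at h4
      simp only [zd, Prod.fst_zero, Prod.snd_zero, sub_zero] at h1 h2 h3
      have h5 := Int.eq_zero_of_dvd_of_natAbs_lt_natAbs h4.1 (by omega)
      have h6 := Int.eq_zero_of_dvd_of_natAbs_lt_natAbs h4.2 (by omega)
      omega
    have hu : ∀ b, ∃ u, SuppIn u (prj M (x (e b))) (r / 8) ∧ cnr (prj M (x (e b))) ⬝ᵥ u = 1 ∧
        u ⬝ᵥ u ≤ B * (r / 8 : ℕ) ∧
        (Dm ((regOf M Λ true).pw * (spinG M a x * holeG M a hs S)) *ᵥ u) ⬝ᵥ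
        (Dm ((regOf M Λ true).pw * (spinG M a x * holeG M a hs S)) *ᵥ u) * (r / 8 : ℕ) ≤ B :=
      fun b => HB M _ hW _ (r / 8) (by omega) (by omega) ((s3 _).2 ⟨_, rfl⟩) fun f' h1 h2 =>
        flux_near s1 (hfl b) ((s3 _).2 ⟨_, rfl⟩) (by omega) h1 (by omega)
    choose u u1 u2 u3 u4 using hu
    have hΛ : (0 : ℝ) ≤ Λ₀ := Nat.cast_nonneg _
    refine lastB_mono (H₂ (geoD M _ y d J) hW ℓ hℓ (fun b => cnr (prj M (x (e b)))) u
      (fun b b' => ?_) (fun b => ?_) (fun b => ?_) (fun φ hφ t => ?_) _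
      (by nlinarith [mul_nonneg (zero_le_one.trans hC₁) (zero_le_one.trans hΓ)])) ?_
    · split_ifs with h
      · rw [h]; exact u2 b'
      · refine cnr_dot (u1 b') ?_
        exact lt_of_le_of_lt (by omega) (s1.sep _ _ (hfl b) (hfl b') (hne b b' h))
    · refine (u3 b).trans ?_
      have h1 : r / 8 ≤ (Λ₀ + 16) * ℓ := by
        have : r / 8 ≤ r := Nat.div_le_self _ _
        nlinarith
      have h2 : ((r / 8 : ℕ) : ℝ) ≤ (Λ₀ + 16) * ℓ := by exact_mod_cast h1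
      rw [mul_assoc]
      exact mul_le_mul_of_nonneg_left h2 (by linarith)
    · have h2 : (ℓ : ℝ) ≤ 16 * ((r / 8 : ℕ) : ℝ) := by exact_mod_cast (by omega : ℓ ≤ 16 * (r / 8))
      have h3 := u4 b
      refine (mul_le_mul_of_nonneg_left h2 (dot_nn _)).trans ?_
      have h4 : 0 ≤ B * Λ₀ := by positivity
      rw [mul_left_comm]
      exact (mul_le_mul_of_nonneg_left h3 (by norm_num)).trans (by linarith)
    · have h1 := gap _ s1 s2 φ (fun f => ∑ b, if f = prj M (x (e b)) then t b else 0)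
        (fun _ f hf => by
          obtain ⟨i, rfl⟩ := (s4' f).1 hf
          have := hφ (e.symm i)
          rw [e.apply_symm_apply] at this
          exact this)
        (fun f hf => by
          obtain ⟨b, -, hb⟩ := Finset.exists_ne_zero_of_sum_ne_zero hf
          have : f = prj M (x (e b)) := by
            by_contra h
            exact hb (if_neg h)
          exact ⟨rfl, this ▸ hfl b⟩)
      have h2 : (∑ f, (∑ b, if f = prj M (x (e b)) then t b else 0) • cnr f) =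
          ∑ b, t b • cnr (prj M (x (e b))) := by
        simp only [Finset.sum_smul, ite_smul, zero_smul]
        rw [Finset.sum_comm]
        simp
      rw [h2] at h1
      exact h1
    · have h1 := H₄ M Λ T r (fun b => x (e b)) _ s1.sign hH.box hx' (by omega) (by omega) ι y d J
      have h2 : ((2 * (n / 2) : ℕ) : ℝ) = n := by rw [mul_comm, hn]
      rw [h2] at h1
      refine (mul_le_mul_of_nonneg_left h1 (by linarith)).trans ?_
      rw [← mul_assoc, ← mul_assoc]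
      refine mul_le_mul_of_nonneg_right ?_ (abs_nonneg _)
      exact mul_le_mul (by linarith) hp (by positivity) (by positivity)

end Vale.Agent.P144Z.K
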